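import Crest.Agent.X261.Ans.Man0
import Crest.Agent.X261.Psh.Kis71

/-!
# Row 261, package GR, file `AttA` (helper57): poles and the partial Legendre transform

* `QW A h u` : `u + h i` is psh in every chart `i`;  `Pole A u p c` : logarithmic pole of order `c`;
* `Pole.chart`, `Pole.mono` : the pole does not depend on the chart, and is monotone in the order;
* `Lg w t j` : Kiselman's attenuation `inf_{s ≤ t} (sup_{B(z, e^s)} w - j s)`; it is psh, it is
  `-∞` only at poles of order `j`, and it keeps a pole of order `c - j` at a pole of order `c`.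
-/

set_option autoImplicit false
set_option linter.unusedSectionVars false

open Set Filter Topology Metric

noncomputable section

namespace Crest.Agent.X261.Gr.Att

open Crest.Agent.X261.Psh Crest.Agent.X261.Psh.Kis Crest.Agent.X261.Ans

variable {E : Type} [NormedAddCommGroup E] [NormedSpace ℂ E] [FiniteDimensional ℂ E]
  {P : Type} [TopologicalSpace P]

/-! ### the flat part -/

theorem le_add_coe_iff {a b : EReal} {c : ℝ} : a ≤ b + c ↔ a + ((-c : ℝ) : EReal) ≤ b := by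
  rw [EReal.coe_neg, ← sub_eq_add_neg]
  exact (EReal.sub_le_iff_le_add (Or.inl (EReal.coe_ne_bot c)) (Or.inl (EReal.coe_ne_top c))).symm

/-- Kiselman's attenuation -/
def Lg (w : E → EReal) (t j : ℝ) (z : E) : EReal :=
  ⨅ s ∈ Iic t, (bsup w z (Real.exp s) + ((0 + -j * s : ℝ) : EReal))

variable {D D' : Set E} {w w' : E → EReal} {t t' j : ℝ} {z z' : E}

theorem cball_sub (hB : closedBall z (Real.exp t) ⊆ D) {s : ℝ} (hs : s ∈ Iic t) :
    closedBall z (Real.exp s) ⊆ D :=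
  (closedBall_subset_closedBall (Real.exp_le_exp.2 hs)).trans hB

theorem lg_psh (hD : IsOpen D) (hw : IsPsh D w) (hD' : IsOpen D')
    (hB : ∀ x ∈ D', closedBall x (Real.exp t) ⊆ D) (j : ℝ) : IsPsh D' (Lg w t j) :=
  (tube_sup hD hw (I := Iic t) fun x hx _ hs => cball_sub (hB x hx) hs).legendre hD'
    ordConnected_Iic nonempty_Iic (-j) 0

theorem lg_le {s : ℝ} (hs : s ≤ t) {a : ℝ} (ha : ∀ y ∈ closedBall z (Real.exp s), w y ≤ a) :
    Lg w t j z ≤ ((a - j * s : ℝ) : EReal) := by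
  refine (biInf_le (fun s => bsup w z (Real.exp s) + ((0 + -j * s : ℝ) : EReal))
    (show s ∈ Iic t from hs)).trans ((add_le_coe (bsup_le ha) le_rfl).trans (le_of_eq ?_))
  congr 1; ring

theorem lg_cmp {L H : ℝ} (ht : t - L ≤ t')
    (h : ∀ s ≤ t, ∀ y' ∈ closedBall z' (Real.exp (s - L)),
      ∃ y ∈ closedBall z (Real.exp s), w' y' ≤ w y + H) :
    Lg w' t' j z' ≤ Lg w t j z + ((H + j * L : ℝ) : EReal) := by
  rw [le_add_coe_iff]
  refine le_iInf₂ fun s hs => ?_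
  rw [← le_add_coe_iff]
  have h1 : bsup w' z' (Real.exp (s - L)) ≤ bsup w z (Real.exp s) + H :=
    bsup_le fun y' hy' => by
      obtain ⟨y, hy, h2⟩ := h s hs y' hy'
      exact h2.trans (add_le_add_left (le_bsup w hy) _)
  refine (biInf_le (fun s => bsup w' z' (Real.exp s) + ((0 + -j * s : ℝ) : EReal))
    (show s - L ∈ Iic t' from le_trans (by linarith [mem_Iic.1 hs]) ht)).trans
    ((add_le_add_left h1 _).trans (le_of_eq ?_))
  rw [add_assoc, add_assoc, ← EReal.coe_add, ← EReal.coe_add]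
  congr 2; ring

/-- the attenuated function is `-∞` only at poles of order `j` -/
theorem pole_of_lg (hD : IsOpen D) (hw : IsPsh D w) (hB : closedBall z (Real.exp t) ⊆ D)
    (hj : 0 ≤ j) (h : Lg w t j z = ⊥) :
    ∃ C : ℝ, ∀ᶠ y in 𝓝[≠] z, w y ≤ ((j * Real.log ‖y - z‖ + C : ℝ) : EReal) := by
  have hT : Tube {z} (Iic t) fun x s => bsup w x (Real.exp s) :=
    tube_sup hD hw fun x hx _ hs => by rw [mem_singleton_iff.1 hx]; exact cball_sub hB hs
  obtain ⟨M, hM⟩ := exists_real_ge (hT.lt_top (mem_singleton z) (mem_Iic.2 le_rfl))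
  have key : ∀ s ≤ t, bsup w z (Real.exp s) ≤ ((M - j * t + j * s : ℝ) : EReal) := by
    intro s hs
    have h1 : Lg w t j z < ((M - j * t + j * s - j * t : ℝ) : EReal) := by
      rw [h]; exact EReal.bot_lt_coe _
    obtain ⟨s', h2⟩ := iInf_lt_iff.1 h1
    obtain ⟨hs', h2⟩ := iInf_lt_iff.1 h2
    have h3 := (add_coe_lt_iff.1 h2).le
    have h4 := mul_le_mul_of_nonneg_left hs hj
    have h5 := mul_le_mul_of_nonneg_left (mem_Iic.1 hs') hj
    rcases le_total s' s with h6 | h6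
    · exact hT.le_affine ordConnected_Iic (mem_singleton z) hs' (mem_Iic.2 le_rfl)
        (h3.trans (EReal.coe_le_coe_iff.2 (by linarith)))
        (hM.trans (EReal.coe_le_coe_iff.2 (by linarith))) ⟨h6, hs⟩
    · exact (bsup_mono w z (Real.exp_le_exp.2 h6)).trans
        (h3.trans (EReal.coe_le_coe_iff.2 (by linarith)))
  refine ⟨M - j * t, ?_⟩
  filter_upwards [self_mem_nhdsWithin,
    nhdsWithin_le_nhds (closedBall_mem_nhds z (Real.exp_pos t))] with y hy1 hy2
  have h0 : 0 < ‖y - z‖ := norm_pos_iff.2 (sub_ne_zero.2 hy1)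
  have h1 := key (Real.log ‖y - z‖)
    ((Real.log_le_iff_le_exp h0).2 (mem_closedBall_iff_norm.1 hy2))
  rw [Real.exp_log h0, add_comm] at h1
  exact (le_bsup w (mem_closedBall_iff_norm.2 le_rfl)).trans h1

/-- the value of a psh function at a point is bounded by the values nearby -/
theorem le_of_punct [Nontrivial E] (hw : IsPsh D w) (hz : D ∈ 𝓝 z) {a : ℝ}
    (h : ∀ᶠ y in 𝓝[≠] z, w y ≤ a) : w z ≤ a := by
  obtain ⟨ε, hε, h1⟩ := Metric.eventually_nhds_iff.1
    ((eventually_nhdsWithin_iff.1 h).and (show ∀ᶠ y in 𝓝 z, y ∈ D from hz))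
  obtain ⟨v, hv⟩ := exists_norm_eq E (half_pos hε).le
  have h2 : ∀ c : ℂ, ‖c‖ ≤ 1 → dist (z + c • v) z < ε := fun c hc => by
    rw [dist_eq_norm, add_sub_cancel_left, norm_smul, hv]
    nlinarith
  refine hw.sub.le_const (v := v) (fun c hc => (h1 (h2 c hc)).2) fun c hc =>
    (h1 (h2 c hc.le)).1 fun h3 => ?_
  have h4 : ‖c • v‖ = 0 := by simpa using h3
  rw [norm_smul, hc, hv] at h4
  linarith

/-- the attenuated function keeps a pole of order `c - j` -/
theorem lg_pole [Nontrivial E] (hw : IsPsh D w) (hz : D ∈ 𝓝 z) {c C : ℝ} (hc : 0 ≤ c)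
    (h : ∀ᶠ y in 𝓝[≠] z, w y ≤ ((c * Real.log ‖y - z‖ + C : ℝ) : EReal)) (t j : ℝ) :
    ∀ᶠ r : ℝ in 𝓝[>] 0, ∀ x, dist x z < r →
      Lg w t j x ≤ (((c - j) * Real.log r + (c * Real.log 2 + C) : ℝ) : EReal) := by
  obtain ⟨ε, hε, h1⟩ := Metric.eventually_nhds_iff.1 (eventually_nhdsWithin_iff.1 h)
  have h8 : ∀ᶠ r : ℝ in 𝓝[>] 0, 0 < r := self_mem_nhdsWithin
  filter_upwards [h8, nhdsWithin_le_nhds (gt_mem_nhds (half_pos hε)),
    nhdsWithin_le_nhds (ge_mem_nhds (Real.exp_pos t))] with r hr hr1 hr2 x hx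
  have h2 : ∀ y, y ≠ z → dist y z < 2 * r → w y ≤ ((c * Real.log (2 * r) + C : ℝ) : EReal) := by
    intro y hy hy'
    refine (h1 (by linarith) hy).trans (EReal.coe_le_coe_iff.2 ?_)
    have := Real.log_le_log (norm_pos_iff.2 (sub_ne_zero.2 hy)) (dist_eq_norm y z ▸ hy'.le)
    nlinarith
  have h3 : ∀ y, dist y z < 2 * r → w y ≤ ((c * Real.log (2 * r) + C : ℝ) : EReal) := by
    intro y hy
    rcases eq_or_ne y z with rfl | hne
    · refine le_of_punct hw hz ?_
      filter_upwards [self_mem_nhdsWithin,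
        nhdsWithin_le_nhds (ball_mem_nhds y (by linarith : 0 < 2 * r))] with y' h4 h5
      exact h2 y' h4 h5
    · exact h2 y hne hy
  refine (lg_le (s := Real.log r) ((Real.log_le_iff_le_exp hr).2 hr2) fun y hy => h3 y ?_).trans
    (le_of_eq ?_)
  · rw [Real.exp_log hr, mem_closedBall] at hy
    linarith [dist_triangle y x z]
  · rw [Real.log_mul two_ne_zero hr.ne']
    congr 1; ring

/-! ### manifolds -/

/-- `u` read in the chart `i`, with the weight `h i` -/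
def cw (A : HA E P) (h : A.ι → P → ℝ) (u : P → EReal) (i : A.ι) (z : E) : EReal :=
  u ((A.e i).symm z) + (h i ((A.e i).symm z) : ℝ)

/-- quasi-psh functions for the chart weights `h` -/
def QW (A : HA E P) (h : A.ι → P → ℝ) (u : P → EReal) : Prop :=
  ∀ i, IsPsh (A.e i).target (cw A h u i)

/-- logarithmic pole of order `c` at `p`, read in the chart `i` -/
def PoleC (A : HA E P) (u : P → EReal) (i : A.ι) (p : P) (c : ℝ) : Prop :=
  ∃ C : ℝ, ∀ᶠ z in 𝓝[≠] (A.e i p),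
    u ((A.e i).symm z) ≤ ((c * Real.log ‖z - A.e i p‖ + C : ℝ) : EReal)

/-- logarithmic pole of order `c` at `p` -/
def Pole (A : HA E P) (u : P → EReal) (p : P) (c : ℝ) : Prop :=
  ∃ i, p ∈ (A.e i).source ∧ PoleC A u i p c

variable {A : HA E P} {h : A.ι → P → ℝ} {u : P → EReal} {i k : A.ι} {p : P} {c c' : ℝ}

theorem ev_punct (hp : p ∈ (A.e i).source) {Q : P → Prop} :
    (∀ᶠ q in 𝓝[≠] p, Q q) ↔ ∀ᶠ z in 𝓝[≠] (A.e i p), Q ((A.e i).symm z) := by
  simp only [eventually_nhdsWithin_iff, HA.ev_chart hp]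
  refine eventually_congr ((HA.ev_target hp).mono fun z hz => ?_)
  refine imp_congr_left (not_congr ⟨fun h => ?_, fun h => ?_⟩)
  · rw [← mem_singleton_iff.1 h, (A.e i).right_inv hz]; rfl
  · rw [mem_singleton_iff.1 h, (A.e i).left_inv hp]; rfl

theorem poleC_iff (hp : p ∈ (A.e i).source) : PoleC A u i p c ↔
    ∃ C : ℝ, ∀ᶠ q in 𝓝[≠] p, u q ≤ ((c * Real.log ‖A.e i q - A.e i p‖ + C : ℝ) : EReal) := by
  refine exists_congr fun C => ?_
  rw [ev_punct hp]
  refine eventually_congr (((HA.ev_target hp).mono fun z hz => ?_).filter_mono nhdsWithin_le_nhds)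
  rw [(A.e i).right_inv hz]

/-- transition maps are locally Lipschitz -/
theorem exists_lip (hi : p ∈ (A.e i).source) (hk : p ∈ (A.e k).source) :
    ∃ L : ℝ, 1 ≤ L ∧ ∃ N ∈ 𝓝 p, N ⊆ (A.e i).source ∩ (A.e k).source ∧
      ∀ q ∈ N, ∀ q' ∈ N, ‖A.e i q - A.e i q'‖ ≤ L * ‖A.e k q - A.e k q'‖ := by
  have h1 : ContDiffAt ℂ 1 (fun z => A.e i ((A.e k).symm z)) (A.e k p) :=
    (HA.tr_an hk hi).contDiffAt
  obtain ⟨K, T, hT, hK⟩ := h1.exists_lipschitzOnWith
  refine ⟨K + 1, by linarith [K.2], _, inter_mem (inter_mem (HA.ev_source hi) (HA.ev_source hk))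
    ((HA.ev_chart' hk).1 hT), inter_subset_left, fun q hq q' hq' => ?_⟩
  have h2 := hK.norm_sub_le hq.2 hq'.2
  simp only [(A.e k).left_inv hq.1.2, (A.e k).left_inv hq'.1.2] at h2
  nlinarith [norm_nonneg (A.e k q - A.e k q')]

theorem ne_of_ne (hp : p ∈ (A.e i).source) {q : P} (hq : q ∈ (A.e i).source) (hne : q ≠ p) :
    0 < ‖A.e i q - A.e i p‖ :=
  norm_pos_iff.2 (sub_ne_zero.2 fun h => hne ((A.e i).injOn hq hp h))

theorem PoleC.chart (H : PoleC A u i p c) (hc : 0 ≤ c) (hi : p ∈ (A.e i).source)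
    (hk : p ∈ (A.e k).source) : PoleC A u k p c := by
  obtain ⟨C, hC⟩ := (poleC_iff hi).1 H
  obtain ⟨L, hL, N, hN, h1, h2⟩ := exists_lip hi hk
  refine (poleC_iff hk).2 ⟨c * Real.log L + C, ?_⟩
  filter_upwards [hC, self_mem_nhdsWithin, nhdsWithin_le_nhds hN] with q h3 h4 h5
  refine h3.trans (EReal.coe_le_coe_iff.2 ?_)
  have h6 := Real.log_le_log (ne_of_ne hi (h1 h5).1 h4) (h2 q h5 p (mem_of_mem_nhds hN))
  rw [Real.log_mul (by linarith) (ne_of_ne hk (h1 h5).2 h4).ne'] at h6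
  nlinarith

/-- a pole can be read in every chart -/
theorem Pole.chart (H : Pole A u p c) (hc : 0 ≤ c) (hk : p ∈ (A.e k).source) :
    PoleC A u k p c := by
  obtain ⟨i, hi, H⟩ := H
  exact H.chart hc hi hk

theorem PoleC.mono (H : PoleC A u i p c) (hc : c' ≤ c) : PoleC A u i p c' := by
  obtain ⟨C, hC⟩ := H
  refine ⟨C, ?_⟩
  filter_upwards [hC, nhdsWithin_le_nhds (closedBall_mem_nhds _ one_pos)] with z h1 h2
  refine h1.trans (EReal.coe_le_coe_iff.2 ?_)
  have := Real.log_nonpos (norm_nonneg _) (mem_closedBall_iff_norm.1 h2)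
  nlinarith

theorem Pole.mono (H : Pole A u p c) (hc : c' ≤ c) : Pole A u p c' :=
  H.imp fun _ h => ⟨h.1, h.2.mono hc⟩

theorem PoleC.of_le {u' : P → EReal} (H : PoleC A u i p c) (hi : p ∈ (A.e i).source) {B : ℝ}
    (hle : ∀ᶠ q in 𝓝[≠] p, u' q ≤ u q + B) : PoleC A u' i p c := by
  obtain ⟨C, hC⟩ := (poleC_iff hi).1 H
  refine (poleC_iff hi).2 ⟨C + B, ?_⟩
  filter_upwards [hC, hle] with q h1 h2
  exact h2.trans ((add_le_coe h1 le_rfl).trans (le_of_eq (by rw [add_assoc])))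

theorem Pole.of_le {u' : P → EReal} (H : Pole A u p c) {B : ℝ}
    (hle : ∀ᶠ q in 𝓝[≠] p, u' q ≤ u q + B) : Pole A u' p c :=
  H.imp fun _ h => ⟨h.1, h.2.of_le h.1 hle⟩

theorem pole_of_subsingleton [Subsingleton E] (A : HA E P) (u : P → EReal) (p : P) (c : ℝ) :
    Pole A u p c := by
  obtain ⟨i, hi⟩ := A.cover p
  exact ⟨i, hi, 0, eventually_nhdsWithin_iff.2
    (Eventually.of_forall fun z hz => absurd (Subsingleton.elim _ _) hz)⟩

/-- the weight does not matter for poles -/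
theorem poleC_iff_cw (hp : p ∈ (A.e i).source) (hh : ContinuousAt (h i) p) : PoleC A u i p c ↔
    ∃ C : ℝ, ∀ᶠ z in 𝓝[≠] (A.e i p),
      cw A h u i z ≤ ((c * Real.log ‖z - A.e i p‖ + C : ℝ) : EReal) := by
  have h1 : ∀ᶠ z in 𝓝[≠] (A.e i p), |h i ((A.e i).symm z)| < |h i p| + 1 :=
    nhdsWithin_le_nhds ((HA.ev_chart hp).1 (hh.abs.eventually (gt_mem_nhds (by linarith))))
  constructor
  · rintro ⟨C, hC⟩
    refine ⟨C + (|h i p| + 1), ?_⟩
    filter_upwards [hC, h1] with z h2 h3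
    exact (add_le_coe h2 le_rfl).trans (EReal.coe_le_coe_iff.2 (by linarith [(abs_lt.1 h3).2]))
  · rintro ⟨C, hC⟩
    refine ⟨C + (|h i p| + 1), ?_⟩
    filter_upwards [hC, h1] with z h2 h3
    exact (add_coe_le_iff.1 h2).trans (EReal.coe_le_coe_iff.2 (by linarith [(abs_lt.1 h3).1]))

end Crest.Agent.X261.Gr.Att
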