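import Crest.Agent.X261.BT.EnvB
import Crest.Agent.X261.BT.GlobB

/-!
# X261 / GRED (helper96): the volume of the set where an envelope is negative

* `mass`        : conservation of the Monge-Ampere mass;
* `vol_le_pp`   : `vol {u < 0} ≤ MA(u) {u < 0}` for `u ≤ 0` with compact support;
* `vol_env_le`  : `vol {env v < 0} ≤ MA_{c ω}(f) L` if `v = min 0 f`;
* `vol_env`     : the same with any `f₀` which is equal to `f` off `L`;
* `vol_obs`, `vol_fam` : the obstacle `min 0 f` extended by zero, and families of such;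
* `vol_env_glob`: `vol {env w < 0} ≤ c ^ n vol K` for `w ≤ 0` `c ω`-psh with support in `K`.
-/

set_option autoImplicit false
set_option linter.unusedSectionVars false

open Set Filter Topology MeasureTheory

namespace Crest.Agent.X261.Gr.Vol

open Crest.Agent.R275.Geo
open Crest.Agent.R281.Kp_487 (KP pot)
open Crest.Agent.X261.BT

noncomputable section

variable {n : ℕ} {M : Type} [TopologicalSpace M] [T2Space M] [MeasurableSpace M] [BorelSpace M]

variable {A : Atl n M} [Countable A.ι] {H : KP A} {u v f f₀ : M → ℝ} {O L : Set M} {c : ℝ}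

/-- conservation of mass -/
theorem mass (hH : H.Pos) {G : KP A} (hG : G.Semipos) (hf : QP G O f) (hf₀ : QP G O f₀)
    (hL : IsCompact L) (hLO : L ⊆ O) (he : ∀ x ∈ O, x ∉ L → f x = f₀ x) :
    MAo G O f L = MAo G O f₀ L :=
  MX_mass_on (H := fun _ => G) hH hf.op (fun _ => hG) (fun _ => hf₀) (fun _ => hf) hL hLO
    fun _ => he

theorem vol_le_pp (hH : H.Pos) (hu : PP H u) (h0 : ∀ x, u x ≤ 0) :
    MA H (fun _ => 0) {x | u x < 0} ≤ MA H u {x | u x < 0} := by
  have hz := QP.const (pos_semi hH) isOpen_univ (0 : ℝ)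
  have hN : MeasurableSet {x | u x < 0} :=
    (isOpen_lt hu.qp.continuous continuous_const).measurableSet
  have hK : IsCompact (tsupport u) := hu.cpt
  have hs : {x | u x < 0} ⊆ tsupport u := fun x hx => subset_tsupport u (ne_of_lt hx)
  have h1 := mass hH (pos_semi hH) hu.qp hz hK (subset_univ _)
    fun x _ hx => image_eq_zero_of_notMem_tsupport hx
  have hD := hK.measurableSet.diff hN
  have h2 := MA_touch hu.qp hz (fun x _ => h0 x) hD (subset_univ _)
    (fun x hx => not_lt.1 hx.2) (tsupport u \ {x | u x < 0})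
  rw [Measure.restrict_apply_self, Measure.restrict_apply_self] at h2
  have h3 : MA H (fun _ => 0) (tsupport u \ {x | u x < 0}) ≠ ⊤ :=
    ((measure_mono sdiff_subset).trans_lt (MX_lt_top (H := fun _ => H) isOpen_univ (fun _ => hz) hK
      (subset_univ _))).ne
  refine (ENNReal.add_le_add_iff_right h3).1 ?_
  calc _ = MA H (fun _ => 0) (tsupport u) := by
        rw [← measure_inter_add_sdiff (tsupport u) hN, inter_eq_right.2 hs]
    _ = MA H u {x | u x < 0} + MA H u (tsupport u \ {x | u x < 0}) := by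
        rw [← inter_eq_right.2 hs, sdiff_self_inter, measure_inter_add_sdiff _ hN]
        exact h1.symm
    _ ≤ _ := add_le_add le_rfl h2

/-- contact with a function which is psh for a bigger form -/
theorem touch_sc (hH : H.Semipos) (hc : 1 ≤ c) (hu : QP H univ u) (hf : QP (sc c H) O f)
    (hle : ∀ x ∈ O, u x ≤ f x) {S : Set M} (hS : MeasurableSet S) (hSO : S ⊆ O)
    (hge : ∀ x ∈ S, f x ≤ u x) : MA H u S ≤ MAo (sc c H) O f S := by
  have h1 := MX_le_ad (H := fun _ : Fin n => H) (φ := fun _ => u) isOpen_univ (fun _ => hu)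
    (H' := fun _ => sc (c - 1) H) fun _ => semi_sc hH (sub_nonneg.2 hc)
  have h2 := MX_of_pot (H := fun _ : Fin n => ad H (sc (c - 1) H)) (φ := fun _ => u)
    (H' := fun _ => sc c H) (ψ := fun _ => u) isOpen_univ
    (fun _ => hu.ad_right (semi_sc hH (sub_nonneg.2 hc))) (fun _ => hu.cont) fun _ i z _ => by
      simp only [pot_apply, wt_ad, wt_sc]
      ring
  have h3 := MA_touch (hu.sc_one.sc_le hH hc) hf hle hS hSO hge S
  rw [Measure.restrict_apply_self, Measure.restrict_apply_self] at h3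
  exact ((h1.trans h2.ge) S).trans h3

theorem vol_env_le (hH : H.Pos) (hv : Obs H v) (hv0 : HasCompactSupport v)
    (h0 : ∀ x, v x ≤ 0) (hc : 1 ≤ c) (hf : QP (sc c H) O f) (hLO : L ⊆ O)
    (hle : ∀ x ∈ O, v x ≤ f x) (hge : ∀ x, v x < 0 → x ∈ L ∧ f x ≤ v x) :
    MA H (fun _ => 0) {x | env H v x < 0} ≤ MAo (sc c H) O f L := by
  have hS := pos_semi hH
  have hq := hv.qp hH
  have h1 := hv.env_le hS
  have h2 := vol_le_pp hH ⟨hq, CE.zero_iff.1 ((hv.ce hS).trans (CE.zero_iff.2 hv0))⟩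
    fun x => (h1 x).trans (h0 x)
  have h3 : MeasurableSet ({x | v x < 0} ∩ {x | env H v x = v x}) :=
    (isOpen_lt hv.cont continuous_const).measurableSet.inter
      (isClosed_eq hq.continuous hv.cont).measurableSet
  refine h2.trans (le_trans (measure_mono_ae ?_) ((touch_sc hS hc hq hf
    (fun x hx => (h1 x).trans (hle x hx)) h3 (fun x hx => hLO (hge x hx.1).1)
    fun x hx => (hge x hx.1).2.trans (le_of_eq hx.2.symm)).trans
      (measure_mono fun x hx => (hge x hx.1).1)))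
  filter_upwards [env_ae hH hv] with x h4 h5
  exact ⟨lt_of_eq_of_lt h4.symm h5, h4⟩

/-- **the volume bound**: it only depends on `f` off the compact set `L` -/
theorem vol_env (hH : H.Pos) (hv : Obs H v) (hv0 : HasCompactSupport v)
    (h0 : ∀ x, v x ≤ 0) (hc : 1 ≤ c) (hf : QP (sc c H) O f) (hf₀ : QP (sc c H) O f₀)
    (hL : IsCompact L) (hLO : L ⊆ O) (he : ∀ x ∈ O, x ∉ L → f x = f₀ x)
    (hle : ∀ x ∈ O, v x ≤ f x) (hge : ∀ x, v x < 0 → x ∈ L ∧ f x ≤ v x) :
    MA H (fun _ => 0) {x | env H v x < 0} ≤ MAo (sc c H) O f₀ L :=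
  (vol_env_le hH hv hv0 h0 hc hf hLO hle hge).trans
    (mass hH (semi_sc (pos_semi hH) (zero_le_one.trans hc)) hf hf₀ hL hLO he).le

theorem MAo_lt_top {G : KP A} (hf : QP G O f) (hL : IsCompact L) (hLO : L ⊆ O) :
    MAo G O f L < ⊤ := MX_lt_top (H := fun _ => G) hf.op (fun _ => hf) hL hLO

open Classical in
/-- the obstacle `min 0 f`, extended by zero -/
def obs (L : Set M) (f : M → ℝ) (x : M) : ℝ := if x ∈ L then min 0 (f x) else 0

theorem obs_le (x : M) : obs L f x ≤ 0 := by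
  unfold obs
  split_ifs
  exacts [min_le_left _ _, le_rfl]

theorem obs_off {x : M} (hx : x ∉ L) : obs L f x = 0 := if_neg hx

theorem obs_eq (hp : ∀ x ∈ O, x ∉ L → 0 ≤ f x) {x : M} (hx : x ∈ O) :
    obs L f x = min 0 (f x) := by
  unfold obs
  split_ifs with h
  exacts [rfl, (min_eq_left (hp x hx h)).symm]

theorem obs_cpt (hL : IsCompact L) : HasCompactSupport (obs L f) :=
  HasCompactSupport.intro hL fun _ => obs_off

theorem obs_cont (hO : IsOpen O) (hf : ContinuousOn f O) (hL : IsCompact L) (hLO : L ⊆ O)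
    (hp : ∀ x ∈ O, x ∉ L → 0 ≤ f x) : Continuous (obs L f) := by
  refine continuous_iff_continuousAt.2 fun x => ?_
  by_cases hx : x ∈ L
  · have h1 := hO.mem_nhds (hLO hx)
    refine ContinuousAt.congr (f := fun y => min 0 (f y))
      (continuousAt_const.min (hf.continuousAt h1)) ?_
    filter_upwards [h1] with y hy using (obs_eq hp hy).symm
  · refine (continuousAt_const (y := (0 : ℝ))).congr ?_
    filter_upwards [hL.isClosed.isOpen_compl.mem_nhds hx] with y hy using (obs_off hy).symm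

theorem obs_obs (hs : Slow H) (hH : H.Semipos) (hO : IsOpen O) (hf : ContinuousOn f O)
    (hL : IsCompact L) (hLO : L ⊆ O) (hp : ∀ x ∈ O, x ∉ L → 0 ≤ f x) : Obs H (obs L f) :=
  hs.obs0 hH (obs_cont hO hf hL hLO hp) (obs_cpt hL)

/-- **VOL** -/
theorem vol_obs (hH : H.Pos) (hs : Slow H) (hc : 1 ≤ c) (hf : QP (sc c H) O f)
    (hf₀ : QP (sc c H) O f₀) (hL : IsCompact L) (hLO : L ⊆ O) (he : ∀ x ∈ O, x ∉ L → f x = f₀ x)
    (hp : ∀ x ∈ O, x ∉ L → 0 ≤ f x) :
    MA H (fun _ => 0) {x | env H (obs L f) x < 0} ≤ MAo (sc c H) O f₀ L := by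
  refine vol_env hH (obs_obs hs (pos_semi hH) hf.op hf.cont hL hLO hp) (obs_cpt hL) obs_le hc hf
    hf₀ hL hLO he (fun x hx => (obs_eq hp hx).trans_le (min_le_right _ _)) fun x hx => ?_
  have h1 : x ∈ L := by_contra fun h1 => (obs_off h1).not_lt hx
  rw [obs_eq hp (hLO h1)] at hx ⊢
  exact ⟨h1, le_min ((min_lt_iff.1 hx).resolve_left (lt_irrefl _)).le le_rfl⟩

/-- any function which is `min 0 f` on `O` and zero outside is `obs L f` -/
theorem eq_obs (hLO : L ⊆ O) (hp : ∀ x ∈ O, x ∉ L → 0 ≤ f x) (h1 : ∀ x ∈ O, v x = min 0 (f x))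
    (h2 : ∀ x ∉ O, v x = 0) : v = obs L f := by
  funext x
  by_cases hx : x ∈ O
  · rw [h1 x hx, obs_eq hp hx]
  · rw [h2 x hx, obs_off fun h => hx (hLO h)]

/-- **VOL** for a family of obstacles -/
theorem vol_fam {ι : Type*} {F V : ι → M → ℝ} (hH : H.Pos) (hs : Slow H) (hc : 1 ≤ c)
    (hF : ∀ s, QP (sc c H) O (F s)) (hf₀ : QP (sc c H) O f₀) (hL : IsCompact L) (hLO : L ⊆ O)
    (he : ∀ s, ∀ x ∈ O, x ∉ L → F s x = f₀ x ∧ 0 ≤ F s x)
    (h1 : ∀ s, ∀ x ∈ O, V s x = min 0 (F s x)) (h2 : ∀ s, ∀ x ∉ O, V s x = 0) :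
    (∀ s, Obs H (V s) ∧ ∀ x ∉ L, V s x = 0) ∧
      ∃ W : ENNReal, W < ⊤ ∧ ∀ s, MA H (fun _ => 0) {x | env H (V s) x < 0} ≤ W := by
  have h3 : ∀ s, V s = obs L (F s) := fun s =>
    eq_obs hLO (fun x hx h => (he s x hx h).2) (h1 s) (h2 s)
  refine ⟨fun s => ?_, _, MAo_lt_top hf₀ hL hLO, fun s => ?_⟩
  · rw [h3 s]
    exact ⟨obs_obs hs (pos_semi hH) hf₀.op (hF s).cont hL hLO fun x hx h => (he s x hx h).2,
      fun x => obs_off⟩
  · rw [h3 s]
    exact vol_obs hH hs hc (hF s) hf₀ hL hLO (fun x hx h => (he s x hx h).1)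
      fun x hx h => (he s x hx h).2

/-- global obstacles -/
theorem vol_env_glob (hH : H.Pos) (hs : Slow H) (hc : 1 ≤ c)
    (hv : QP (sc c H) univ v) (h0 : ∀ x, v x ≤ 0) (hL : IsCompact L) (hvL : ∀ x ∉ L, v x = 0) :
    MA H (fun _ => 0) {x | env H v x < 0} ≤ ENNReal.ofReal (c ^ n) * MA H (fun _ => 0) L := by
  have hS := pos_semi hH
  have hc0 : 0 ≤ c := zero_le_one.trans hc
  have hv0 := HasCompactSupport.intro hL hvL
  have h1 := vol_env hH (hs.obs0 hS hv.continuous hv0) hv0 h0 hc hv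
    (QP.const (semi_sc hS hc0) isOpen_univ (c * 0)) hL (subset_univ _)
    (fun x _ hx => by rw [hvL x hx, mul_zero]) (fun _ _ => le_rfl)
    fun x hx => ⟨by_contra fun h1 => (hvL x h1).not_lt hx, le_rfl⟩
  have h2 := MX_smul_all (H := fun _ : Fin n => H) (φ := fun _ _ => (0 : ℝ)) isOpen_univ
    (fun _ => QP.const hS isOpen_univ 0) hc0
  exact h1.trans (le_of_eq (congrArg (fun μ : Measure M => μ L) h2))

end

end Crest.Agent.X261.Gr.Vol
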