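import Crest.Agent.X261.Gr.AttA
import Crest.Agent.X261.Psh.Bom
import Crest.Agent.R271.L0_934

/-!
# Row 261, package GR, file `AttC` (helper57): poles and integrability

* `mem_NI_of_pole`, `Pole.hni` : a pole of order `≥ 2 dim` is a point of non-integrability;
* `pole_diag` : poles along the diagonal.
-/

set_option autoImplicit false
set_option linter.unusedSectionVars false

open Set Filter Topology Metric MeasureTheory Module
open scoped ENNReal

noncomputable section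

namespace Crest.Agent.X261.Gr.Att

open Crest.Agent.X261.Psh Crest.Agent.X261.Ans

variable {E : Type} [NormedAddCommGroup E] [NormedSpace ℂ E] [FiniteDimensional ℂ E]
  {P : Type} [TopologicalSpace P] {A : HA E P}

section meas

variable [MeasurableSpace E] [BorelSpace E] (μ : Measure E) [μ.IsAddHaarMeasure]

theorem mem_NI_log [Nontrivial E] (x : E) :
    x ∈ NI μ fun y => ((2 * finrank ℂ E * Real.log ‖y - x‖ : ℝ) : EReal) := by
  intro V hV
  obtain ⟨δ, hδ, hδ'⟩ := Metric.mem_nhds_iff.1 hV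
  set F : E → ℝ≥0∞ := fun y => (ENNReal.ofReal ‖y‖) ^ (-(finrank ℝ E : ℝ)) with hF
  have h2 : ∫⁻ y in ball (0 : E) δ, F y ∂μ = ∞ :=
    R271.L934.lintegral_ball_norm_eq_top μ finrank_pos hδ
  have h3 : ∫⁻ y in ball x δ, F (y - x) ∂μ = ∫⁻ y in ball (0 : E) δ, F y ∂μ := by
    have := (measurePreserving_add_right μ x).setLIntegral_comp_emb
      (Homeomorph.addRight x).measurableEmbedding (fun y => F (y - x)) (ball 0 δ)
    simp only [add_sub_cancel_right] at this
    rw [this]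
    congr 2
    ext y
    simp
  refine top_le_iff.1 (le_trans ?_ (lintegral_mono_set hδ'))
  rw [← h2, ← h3]
  refine lintegral_mono_ae ?_
  filter_upwards [ae_restrict_of_ae (compl_mem_ae_iff.2 (measure_singleton x))] with y hyx
  have hy3 : 0 < ‖y - x‖ := norm_pos_iff.2 (sub_ne_zero.2 hyx)
  rw [hF, ← EReal.coe_neg, EReal.exp_coe]
  simp only
  rw [ENNReal.ofReal_rpow_of_pos hy3, Real.rpow_def_of_pos hy3, finrank_real_of_complex]
  refine le_of_eq ?_
  congr 2
  push_cast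
  ring

theorem mem_NI_of_pole [Nontrivial E] {w : E → EReal} {x : E} {c C : ℝ}
    (hc : 2 * finrank ℂ E ≤ c)
    (h : ∀ᶠ y in 𝓝[≠] x, w y ≤ ((c * Real.log ‖y - x‖ + C : ℝ) : EReal)) : x ∈ NI μ w := by
  refine NI_of_le_ae (C := C) ((eventually_nhdsWithin_iff.1 h).and
    (closedBall_mem_nhds x one_pos)) ?_ (mem_NI_log μ x)
  filter_upwards [compl_mem_ae_iff.2 (measure_singleton x)] with y hyx hy
  rw [← EReal.coe_add]
  refine (hy.1 hyx).trans (EReal.coe_le_coe_iff.2 ?_)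
  have := Real.log_nonpos (norm_nonneg _) (mem_closedBall_iff_norm.1 hy.2)
  nlinarith

/-- a big pole is a point of non-integrability -/
theorem Pole.hni [Nontrivial E] {u : P → EReal} {p : P} {j : ℝ} (H : Pole A u p j)
    (hj : 2 * finrank ℂ E ≤ j) : p ∈ HNI A μ u := by
  obtain ⟨i, hi, C, hC⟩ := H
  exact ⟨i, hi, mem_NI_of_pole μ hj hC⟩

end meas

theorem Pole.smul {u : P → EReal} {p : P} {j t : ℝ} (H : Pole A u p j) (ht : 0 ≤ t) :
    Pole A (fun q => (t : EReal) * u q) p (t * j) := by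
  obtain ⟨i, hi, C, hC⟩ := H
  exact ⟨i, hi, t * C, hC.mono fun z hz => (coe_mul_le ht hz).trans (le_of_eq (by congr 1; ring))⟩

theorem Pole.hni_mul [MeasurableSpace E] [BorelSpace E] (μ : Measure E) [μ.IsAddHaarMeasure]
    [Nontrivial E] {u : P → EReal} {p : P} {j t : ℝ} (H : Pole A u p j) (ht : 0 ≤ t)
    (hj : 2 * finrank ℂ E ≤ t * j) : p ∈ HNI A μ fun q => (t : EReal) * u q :=
  (H.smul ht).hni μ hj

/-- poles in terms of radii -/
theorem pole_of_radius {u : P → EReal} {p : P} {i : A.ι} (hp : p ∈ (A.e i).source) {c C : ℝ}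
    (h : ∀ᶠ q in 𝓝 p, ∀ r : ℝ, 0 < r → ‖A.e i q - A.e i p‖ ≤ r →
      u q ≤ ((c * Real.log r + C : ℝ) : EReal)) : Pole A u p c := by
  refine ⟨i, hp, (poleC_iff hp).2 ⟨C, ?_⟩⟩
  filter_upwards [nhdsWithin_le_nhds h, self_mem_nhdsWithin,
    nhdsWithin_le_nhds (HA.ev_source hp)] with q h1 h2 h3
  exact h1 _ (ne_of_ne hp h3 h2) le_rfl

/-- a pole along the diagonal is a pole at the points of the diagonal -/
theorem pole_diag {U : P × P → EReal} {x : P} {i : A.ι} (hx : x ∈ (A.e i).source) {c C : ℝ}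
    (h : ∀ᶠ q : P × P in 𝓝 (x, x), ∀ r : ℝ, 0 < r → ‖A.e i q.1 - A.e i q.2‖ ≤ r →
      U q ≤ ((c * Real.log r + C : ℝ) : EReal)) : Pole (A.prod A) U (x, x) c := by
  refine pole_of_radius (A := A.prod A) (i := (i, i)) (C := c * Real.log 2 + C) ⟨hx, hx⟩
    (h.mono fun q hq r hr h1 => ?_)
  have h2 : ‖A.e i q.1 - A.e i x‖ ≤ r := (norm_fst_le _).trans h1
  have h3 : ‖A.e i q.2 - A.e i x‖ ≤ r := (norm_snd_le _).trans h1
  refine (hq (2 * r) (by linarith) ?_).trans (le_of_eq ?_)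
  · have := norm_sub_le (A.e i q.1 - A.e i x) (A.e i q.2 - A.e i x)
    rw [sub_sub_sub_cancel_right] at this
    linarith
  · rw [Real.log_mul two_ne_zero hr.ne']
    congr 1; ring

/-- the same for the regularised obstacles `c log (|z - z'|² + ε) + C` -/
theorem pole_diag_sq {U : P × P → EReal} {x : P} {i : A.ι} (hx : x ∈ (A.e i).source) {c C : ℝ}
    (hc : 0 ≤ c) (h : ∀ᶠ q : P × P in 𝓝 (x, x), ∀ᶠ ε : ℝ in 𝓝[>] 0,
      U q ≤ ((c * Real.log (‖A.e i q.1 - A.e i q.2‖ ^ 2 + ε) + C : ℝ) : EReal)) :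
    Pole (A.prod A) U (x, x) (2 * c) := by
  refine pole_diag hx (C := c * Real.log 2 + C) (h.mono fun q hq r hr h1 => ?_)
  have h8 : ∀ᶠ ε : ℝ in 𝓝[>] 0, 0 < ε := self_mem_nhdsWithin
  obtain ⟨ε, h2, h3, h4⟩ := (hq.and (h8.and
    (nhdsWithin_le_nhds (ge_mem_nhds (by positivity : 0 < r ^ 2))))).exists
  refine h2.trans (EReal.coe_le_coe_iff.2 ?_)
  have h5 : Real.log (‖A.e i q.1 - A.e i q.2‖ ^ 2 + ε) ≤ Real.log (2 * r ^ 2) :=
    Real.log_le_log (by positivity) (by nlinarith [norm_nonneg (A.e i q.1 - A.e i q.2)])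
  rw [Real.log_mul two_ne_zero (by positivity), Real.log_pow] at h5
  push_cast at h5
  nlinarith

/-- poles pull back under holomorphic maps which are injective near the point -/
theorem Pole.comp {F : Type} [NormedAddCommGroup F] [NormedSpace ℂ F] [FiniteDimensional ℂ F]
    {Q : Type} [TopologicalSpace Q] {B : HA F Q} {f : Q → P} {q : Q} (hf : B.Hol A f q)
    (hinj : ∀ᶠ y in 𝓝[≠] q, f y ≠ f q) {u : P → EReal} {c : ℝ} (H : Pole A u (f q) c)
    (hc : 0 ≤ c) : Pole B (fun y => u (f y)) q c := by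
  obtain ⟨i, hi, H⟩ := H
  obtain ⟨C, hC⟩ := (poleC_iff hi).1 H
  obtain ⟨k, hk⟩ := B.cover q
  have h1 : ContDiffAt ℂ 1 (fun z => A.e i (f ((B.e k).symm z))) (B.e k q) :=
    (hf.2 k i hk hi).contDiffAt
  obtain ⟨K, T, hT, hK⟩ := h1.exists_lipschitzOnWith
  refine ⟨k, hk, (poleC_iff hk).2 ⟨c * Real.log (K + 1) + C, ?_⟩⟩
  filter_upwards [hinj, self_mem_nhdsWithin, nhdsWithin_le_nhds (HA.ev_source hk),
    nhdsWithin_le_nhds ((HA.ev_chart' hk).1 hT),
    nhdsWithin_le_nhds (hf.1.eventually ((eventually_nhdsWithin_iff.1 hC).and (HA.ev_source hi)))]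
    with y h2 h3 h4 h5 h6
  refine (h6.1 h2).trans (EReal.coe_le_coe_iff.2 ?_)
  have h7 := hK.norm_sub_le h5 (mem_of_mem_nhds hT)
  simp only [(B.e k).left_inv h4, (B.e k).left_inv hk] at h7
  have h8 := ne_of_ne hk h4 h3
  have h9 : Real.log ‖A.e i (f y) - A.e i (f q)‖ ≤ Real.log ((K + 1) * ‖B.e k y - B.e k q‖) :=
    Real.log_le_log (ne_of_ne hi h6.2 h2) (by nlinarith)
  rw [Real.log_mul (by positivity) h8.ne'] at h9
  nlinarith

end Crest.Agent.X261.Gr.Att
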