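import Crest.Agent.X261.Gr.AttB
import Crest.Agent.X261.Gr.AttC
import Crest.Agent.X261.Ans.Comp

/-!
# Row 261, package GR, file `Att` (helper57): attenuation along compact connected analytic sets

* `att` : big poles at one point of a compact connected analytic set force poles everywhere on it;
* `key`, `key_hni` : two points of such a set lie in the non-integrability locus of the kernels.
-/

set_option autoImplicit false
set_option linter.unusedSectionVars false

open Set Filter Topology Metric MeasureTheory Module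

noncomputable section

namespace Crest.Agent.X261.Gr.Att

open Crest.Agent.X261.Psh Crest.Agent.X261.Ans

variable {E : Type} [NormedAddCommGroup E] [NormedSpace ℂ E] [FiniteDimensional ℂ E]
  {P : Type} [TopologicalSpace P] [T2Space P] {A : HA E P}

/-- **attenuation** along a compact connected analytic set -/
theorem att {h : A.ι → P → ℝ} (hh : ∀ i, ContinuousOn (h i) (A.e i).source) {Z : Set P}
    (hZ : A.An univ Z) (hK : IsCompact Z) (hc : IsPreconnected Z) {p₀ : P} (hp₀ : p₀ ∈ Z) (j : ℝ) :
    ∀ᶠ c : ℝ in atTop, ∀ u, QW A h u → Pole A u p₀ c → ∀ p ∈ Z, Pole A u p j := by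
  refine frc_conn hc (HA.comp_finite isOpen_univ hZ hK (subset_univ _))
    (fun Y hY => (hY.1.an isOpen_univ hZ).isClosed) (fun p hp => ?_) (fun Y hY p hp => ?_) hp₀ j
  · obtain ⟨Y, hY, h1⟩ := HA.comp_cover isOpen_univ hZ (mem_univ p) hp
    exact ⟨Y, ⟨hY, p, h1, hp⟩, h1⟩
  · obtain ⟨h1, d, h2⟩ := hY.1.irr isOpen_univ hZ
    exact att_irr hh h2 (hK.of_isClosed_subset (hY.1.an isOpen_univ hZ).isClosed h1) hp

/-- poles on the diagonal propagate to pairs of points of a compact connected analytic set -/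
theorem key {h : (A.prod A).ι → P × P → ℝ} (hh : ∀ i, ContinuousOn (h i) ((A.prod A).e i).source)
    {Z : Set P} (hZ : A.An univ Z) (hK : IsCompact Z) (hc : IsPreconnected Z) {x : P} (hx : x ∈ Z)
    (j : ℝ) : ∀ᶠ c : ℝ in atTop, ∀ U, QW (A.prod A) h U → Pole (A.prod A) U (x, x) c →
      ∀ y ∈ Z, Pole (A.prod A) U (x, y) j := by
  have h1 : (A.prod A).An univ ({x} ×ˢ Z) := fun q _ =>
    (HA.anAt_singleton A x q.1).prod (hZ q.2 (mem_univ _))
  exact (att hh h1 (isCompact_singleton.prod hK) (isPreconnected_singleton.prod hc)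
    (p₀ := (x, x)) ⟨rfl, hx⟩ j).mono fun c H U hU hp y hy => H U hU hp (x, y) ⟨rfl, hy⟩

/-- **KEY**: the non-integrability loci of kernels with growing poles along the diagonal exhaust
the pairs of points in a compact connected analytic set -/
theorem key_hni [Nontrivial E] [MeasurableSpace (E × E)] [BorelSpace (E × E)]
    (μ : Measure (E × E)) [μ.IsAddHaarMeasure] {h : (A.prod A).ι → P × P → ℝ}
    (hh : ∀ i, ContinuousOn (h i) ((A.prod A).e i).source) {ι : Type*} {l : Filter ι}
    {U : ι → P × P → EReal} {c : ι → ℝ} (hl : Tendsto c l atTop)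
    (hU : ∀ k, QW (A.prod A) h (U k)) {x : P} (hp : ∀ k, Pole (A.prod A) (U k) (x, x) (c k))
    {Z : Set P} (hZ : A.An univ Z) (hK : IsCompact Z) (hc : IsPreconnected Z) (hx : x ∈ Z)
    {t : ℝ} (ht : 0 < t) :
    ∀ᶠ k in l, ∀ y ∈ Z, (x, y) ∈ HNI (A.prod A) μ fun q => (t : EReal) * U k q := by
  filter_upwards [hl.eventually (key hh hZ hK hc hx (2 * finrank ℂ (E × E) / t))] with k hk y hy
  exact (hk _ (hU k) (hp k) y hy).hni_mul μ ht.le (by rw [mul_div_cancel₀ _ ht.ne'])

end Crest.Agent.X261.Gr.Att
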