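import Crest.Agent.X261.Gr.AttA
import Crest.Agent.X261.Ans.HkE

/-!
# Row 261, package GR, file `AttB` (helper57): attenuation of singularities

* `att_irr` : on a compact irreducible analytic set, a big pole at one point forces a pole of order
  `j` at all points (Kiselman's minimum principle and the Harnack inequality);
* `att_conn` : the same on a connected finite union of such sets.
-/

set_option autoImplicit false
set_option linter.unusedSectionVars false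

open Set Filter Topology Metric

noncomputable section

namespace Crest.Agent.X261.Gr.Att

open Crest.Agent.X261.Psh Crest.Agent.X261.Psh.Kis Crest.Agent.X261.Ans

variable {E : Type} [NormedAddCommGroup E] [NormedSpace ℂ E] [FiniteDimensional ℂ E]
  {P : Type} [TopologicalSpace P] {A : HA E P} {h : A.ι → P → ℝ}

/-- uniform comparison of two charts near a compact set -/
theorem unif_cmp (hh : ∀ i, ContinuousOn (h i) (A.e i).source) {i k : A.ι} {K : Set P}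
    (hK : IsCompact K) (hKs : K ⊆ (A.e i).source ∩ (A.e k).source) :
    ∀ᶠ L : ℝ in atTop, ∀ p ∈ K, ∀ y, ‖y - A.e k p‖ ≤ Real.exp (-L) →
      (A.e k).symm y ∈ (A.e i).source ∧
      ‖A.e i ((A.e k).symm y) - A.e i p‖ ≤ Real.exp L * ‖y - A.e k p‖ ∧
      h k ((A.e k).symm y) ≤ h i ((A.e k).symm y) + L := by
  refine hK.induction_on (p := fun S => ∀ᶠ L : ℝ in atTop, ∀ p ∈ S, ∀ y,
    ‖y - A.e k p‖ ≤ Real.exp (-L) → (A.e k).symm y ∈ (A.e i).source ∧
      ‖A.e i ((A.e k).symm y) - A.e i p‖ ≤ Real.exp L * ‖y - A.e k p‖ ∧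
      h k ((A.e k).symm y) ≤ h i ((A.e k).symm y) + L) (by simp)
    (fun _ _ hST hT => hT.mono fun L hL p hp => hL p (hST hp))
    (fun _ _ hS hT => (hS.and hT).mono fun L hL p hp => hp.elim (hL.1 p) (hL.2 p)) fun x hx => ?_
  obtain ⟨hi, hk⟩ := hKs hx
  obtain ⟨L₀, hL₀, N, hN, h1, h2⟩ := exists_lip hi hk
  have h3 : ∀ᶠ q in 𝓝 x, h k q - h i q < h k x - h i x + 1 :=
    (((hh k).continuousAt (HA.ev_source hk)).sub
      ((hh i).continuousAt (HA.ev_source hi))).eventually (gt_mem_nhds (lt_add_one _))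
  obtain ⟨ε, hε, h4⟩ := Metric.eventually_nhds_iff.1
    (((HA.ev_chart hk).1 (h3.and hN)).and (HA.ev_target hk))
  refine ⟨_, mem_nhdsWithin_of_mem_nhds (inter_mem hN
    ((HA.ev_chart' hk).1 (ball_mem_nhds _ (half_pos hε)))), ?_⟩
  filter_upwards [Real.tendsto_exp_neg_atTop_nhds_zero.eventually (gt_mem_nhds (half_pos hε)),
    Real.tendsto_exp_atTop.eventually_ge_atTop L₀, eventually_ge_atTop (h k x - h i x + 1)]
    with L h5 h6 h7 p hp y hy
  have h8 : dist (A.e k p) (A.e k x) < ε / 2 := hp.2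
  obtain ⟨⟨h9, h10⟩, h11⟩ := h4 (y := y) (by
    linarith [dist_triangle y (A.e k p) (A.e k x), dist_eq_norm y (A.e k p)])
  refine ⟨(h1 h10).1, ?_, by linarith⟩
  have := h2 _ h10 p hp.1
  rw [(A.e k).right_inv h11] at this
  exact this.trans (mul_le_mul_of_nonneg_right h6 (norm_nonneg _))

/-- small chart balls -/
structure Bl (A : HA E P) where
  i : A.ι
  z : E
  t : ℝ
  sub : closedBall z (2 * Real.exp t) ⊆ (A.e i).target

namespace Bl

/-- the open ball -/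
def V (b : Bl A) : Set P := (A.e b.i).source ∩ A.e b.i ⁻¹' ball b.z (Real.exp b.t)

/-- the closed ball -/
def K (b : Bl A) : Set P := (A.e b.i).symm '' closedBall b.z (Real.exp b.t)

/-- the attenuated function -/
def ψ (b : Bl A) (h : A.ι → P → ℝ) (j : ℝ) (u : P → EReal) : E → EReal :=
  Lg (cw A h u b.i) b.t j

variable (b : Bl A) {u : P → EReal} {j : ℝ}

theorem isOpen_V : IsOpen b.V := (A.e b.i).isOpen_inter_preimage isOpen_ball

theorem sub' : closedBall b.z (Real.exp b.t) ⊆ (A.e b.i).target :=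
  (closedBall_subset_closedBall (by linarith [Real.exp_pos b.t])).trans b.sub

theorem isCompact_K : IsCompact b.K := by
  have : ProperSpace E := FiniteDimensional.proper ℂ E
  exact (isCompact_closedBall _ _).image_of_continuousOn
    ((A.e b.i).continuousOn_symm.mono b.sub')

theorem V_sub : b.V ⊆ b.K := fun p hp =>
  ⟨A.e b.i p, ball_subset_closedBall hp.2, (A.e b.i).left_inv hp.1⟩

theorem K_sub : b.K ⊆ (A.e b.i).source := by
  rintro _ ⟨y, hy, rfl⟩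
  exact (A.e b.i).map_target (b.sub' hy)

theorem cb {x : E} (hx : x ∈ ball b.z (Real.exp b.t)) :
    closedBall x (Real.exp b.t) ⊆ closedBall b.z (2 * Real.exp b.t) :=
  closedBall_subset_closedBall' (by linarith [mem_ball.1 hx])

theorem psh (hu : QW A h u) (j : ℝ) : IsPsh (ball b.z (Real.exp b.t)) (b.ψ h j u) :=
  lg_psh (A.e b.i).open_target (hu b.i) isOpen_ball (fun _ hx => (b.cb hx).trans b.sub) j

theorem bdd (hu : QW A h u) (j : ℝ) :
    ∀ᶠ C : ℝ in atTop, ∀ x ∈ ball b.z (Real.exp b.t), b.ψ h j u x ≤ C := by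
  have : ProperSpace E := FiniteDimensional.proper ℂ E
  obtain ⟨C, hC⟩ := exists_bound (isCompact_closedBall b.z (2 * Real.exp b.t))
    ((hu b.i).usc.mono b.sub) fun x hx => (hu b.i).lt_top x (b.sub hx)
  filter_upwards [eventually_ge_atTop (C - j * b.t)] with C' hC' x hx
  exact (lg_le le_rfl fun y hy => hC y (b.cb hx hy)).trans (EReal.coe_le_coe_iff.2 hC')

theorem cmp [T2Space P] (hh : ∀ i, ContinuousOn (h i) (A.e i).source) (a b : Bl A) (j : ℝ) :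
    ∀ᶠ B : ℝ in atTop, ∀ u, ∀ p ∈ a.V, p ∈ b.V →
      b.ψ h j u (A.e b.i p) ≤ a.ψ h j u (A.e a.i p) + B := by
  obtain ⟨L, h1, hL⟩ := ((unif_cmp hh (a.isCompact_K.inter b.isCompact_K)
    (inter_subset_inter a.K_sub b.K_sub)).and (eventually_ge_atTop 0)).exists
  filter_upwards [eventually_ge_atTop (L + j * (L + |a.t| + |b.t|))] with B hB u p hp hp'
  have h2 := le_abs_self a.t
  have h3 := neg_abs_le b.t
  have h4 := abs_nonneg a.t
  have h5 := abs_nonneg b.t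
  refine (lg_cmp (L := L + |a.t| + |b.t|) (H := L) (by linarith) fun s hs y hy => ?_).trans
    (add_le_add_right (EReal.coe_le_coe_iff.2 hB) _)
  rw [mem_closedBall_iff_norm] at hy
  obtain ⟨h6, h7, h8⟩ := h1 p ⟨a.V_sub hp, b.V_sub hp'⟩ y
    (hy.trans (Real.exp_le_exp.2 (by linarith)))
  refine ⟨A.e a.i ((A.e b.i).symm y), mem_closedBall_iff_norm.2 (h7.trans ?_), ?_⟩
  · refine (mul_le_mul_of_nonneg_left hy (Real.exp_pos L).le).trans ?_
    rw [← Real.exp_add]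
    exact Real.exp_le_exp.2 (by linarith)
  · simp only [cw, (A.e a.i).left_inv h6]
    rw [add_assoc, ← EReal.coe_add]
    exact add_le_add_right (EReal.coe_le_coe_iff.2 h8) _

end Bl

theorem exists_bl (A : HA E P) (p : P) : ∃ b : Bl A, p ∈ b.V := by
  obtain ⟨i, hi⟩ := A.cover p
  obtain ⟨ε, hε, h1⟩ := Metric.nhds_basis_closedBall.mem_iff.1 (HA.ev_target hi)
  refine ⟨⟨i, A.e i p, Real.log (ε / 2), ?_⟩, hi, mem_ball_self (Real.exp_pos _)⟩
  rw [Real.exp_log (half_pos hε), mul_div_cancel₀ _ two_ne_zero]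
  exact h1

/-- big poles at `p` force poles of order `j` on `S`, uniformly for all quasi-psh functions -/
def Frc (A : HA E P) (h : A.ι → P → ℝ) (p : P) (S : Set P) : Prop :=
  ∀ j : ℝ, ∀ᶠ c : ℝ in atTop, ∀ u, QW A h u → Pole A u p c → ∀ q ∈ S, Pole A u q j

theorem frc_of {p : P} {S : Set P} (H : ∀ j : ℝ, 0 ≤ j → ∃ c : ℝ, ∀ u, QW A h u → Pole A u p c →
    ∀ q ∈ S, Pole A u q j) : Frc A h p S := fun j => by
  obtain ⟨c, hc⟩ := H (max j 0) (le_max_right _ _)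
  filter_upwards [eventually_ge_atTop c] with c' hc' u hu hp q hq
  exact (hc u hu (hp.mono hc') q hq).mono (le_max_left _ _)

theorem Frc.trans {p q : P} {S T : Set P} (H : Frc A h p S) (hq : q ∈ S) (H' : Frc A h q T) :
    Frc A h p T := fun j => by
  obtain ⟨c, hc⟩ := (H' j).exists
  exact (H c).mono fun c' hc' u hu hp => hc u hu (hc' u hu hp q hq)

theorem Frc.mono {p : P} {S T : Set P} (H : Frc A h p S) (hT : T ⊆ S) : Frc A h p T :=
  fun j => (H j).mono fun _ hc u hu hp q hq => hc u hu hp q (hT hq)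

theorem frc_sUnion {p : P} {𝒮 : Set (Set P)} (h𝒮 : 𝒮.Finite) (H : ∀ S ∈ 𝒮, Frc A h p S) :
    Frc A h p (⋃₀ 𝒮) := fun j =>
  (h𝒮.eventually_all.2 fun S hS => H S hS j).mono fun _ hc u hu hp _ ⟨S, hS, hq⟩ =>
    hc S hS u hu hp _ hq

/-- **attenuation** on a compact irreducible analytic set -/
theorem att_irr [T2Space P] (hh : ∀ i, ContinuousOn (h i) (A.e i).source)
    {Y : Set P} {d : ℕ} (hY : A.Irr univ Y d) (hK : IsCompact Y) {p₀ : P} (hp₀ : p₀ ∈ Y) :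
    Frc A h p₀ Y := by
  refine frc_of fun j hj => ?_
  rcases subsingleton_or_nontrivial E with hE | hE
  · exact ⟨0, fun u _ _ q _ => pole_of_subsingleton A u q j⟩
  choose b hb using exists_bl A
  obtain ⟨T, -, hT⟩ := hK.elim_nhds_subcover (fun p => (b p).V)
    fun p _ => (b p).isOpen_V.mem_nhds (hb p)
  have hcov : ∀ p ∈ Y, ∃ a : T, p ∈ (b a).V := fun p hp => by simpa using hT hp
  obtain ⟨B, hB, hB0⟩ := ((eventually_all.2 fun a : T => eventually_all.2 fun a' : T =>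
    Bl.cmp hh (b a) (b a') j).and (eventually_ge_atTop 0)).exists
  set ψ : {u // QW A h u} → P → EReal := fun u p =>
    ⨆ (a : T) (_ : p ∈ (b a).V), (b a).ψ h j u.1 (A.e (b a).i p) with hψ
  have h1 : ∀ u (a : T), ∀ p ∈ (b a).V, (b a).ψ h j u.1 (A.e (b a).i p) ≤ ψ u p :=
    fun u a p hp => le_iSup₂_of_le a hp le_rfl
  have h2 : ∀ u (a : T), ∀ p ∈ (b a).V, ψ u p ≤ (b a).ψ h j u.1 (A.e (b a).i p) + B :=
    fun u a p hp => iSup₂_le fun a' hp' => hB a a' u.1 p hp hp'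
  have hQ : ∀ z ∈ univ ∩ Y, ∃ i, Hk.QL A (univ ∩ Y) ψ (fun _ => 1) z i := fun z hz => by
    obtain ⟨a, ha⟩ := hcov z hz.2
    refine ⟨(b a).i, ha.1, _, isOpen_ball, ha.2, B, hB0, fun u => ⟨_, (b a).psh u.2 j,
      fun y _ h3 h4 => ?_⟩⟩
    rw [mul_one]
    exact ⟨h2 u a y ⟨h3, h4⟩,
      (h1 u a y ⟨h3, h4⟩).trans (le_add_of_nonneg_right (EReal.coe_nonneg.2 hB0))⟩
  obtain ⟨a₀, ha₀⟩ := hcov p₀ hp₀
  obtain ⟨C, hC, h3⟩ := Hk.irr_pole (Hk.coverStmt E) isOpen_univ hY (fun _ => zero_le_one) hQ hK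
    (fun y hy => ⟨mem_univ y, hy⟩) ⟨mem_univ p₀, hp₀⟩ ha₀.1
  have h4 := h3.self_of_nhds ⟨mem_univ p₀, hp₀⟩
  refine ⟨j + 2 * C + 1, fun u hu hp q hq => ?_⟩
  by_contra hcon
  obtain ⟨a, ha⟩ := hcov q hq
  have h5 : (b a).ψ h j u (A.e (b a).i q) ≠ ⊥ := fun h6 => hcon ⟨_, ha.1,
    (poleC_iff_cw ha.1 ((hh _).continuousAt (HA.ev_source ha.1))).2
      (pole_of_lg (A.e _).open_target (hu _) (((b a).cb ha.2).trans (b a).sub) hj h6)⟩
  obtain ⟨M, hM⟩ := (eventually_all.2 fun a : T => (b a).bdd hu j).exists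
  set m : EReal := ⨆ y ∈ Y, ψ ⟨u, hu⟩ y with hm
  have h6 : m ≠ ⊤ := ((iSup₂_le fun y _ => iSup₂_le fun a' hy => hM a' _ hy.2).trans_lt
    (EReal.coe_lt_top M)).ne
  have h7 : m ≠ ⊥ := fun h8 => h5 (le_bot_iff.1
    ((h1 ⟨u, hu⟩ a q ha).trans ((le_biSup (ψ ⟨u, hu⟩) hq).trans h8.le)))
  lift m to ℝ using ⟨h6, h7⟩ with β hβ
  have h8 : ∃ p ∈ Y, ((β - 1 : ℝ) : EReal) ≤ ψ ⟨u, hu⟩ p := by
    have : ((β - 1 : ℝ) : EReal) < ⨆ y ∈ Y, ψ ⟨u, hu⟩ y := by
      rw [← hm]; exact EReal.coe_lt_coe_iff.2 (by linarith)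
    obtain ⟨y, hy⟩ := lt_iSup_iff.1 this
    obtain ⟨hy1, hy2⟩ := lt_iSup_iff.1 hy
    exact ⟨y, hy1, hy2.le⟩
  have hc0 : 0 ≤ j + 2 * C + 1 := by linarith
  obtain ⟨C', hC'⟩ := (poleC_iff_cw ha₀.1 ((hh _).continuousAt (HA.ev_source ha₀.1))).1
    (hp.chart hc0 ha₀.1)
  obtain ⟨ε, hε, h9⟩ := Metric.isOpen_iff.1 isOpen_ball _ ha₀.2
  have h10 := h4 ⟨u, hu⟩ β 1 (j + 2 * C + 1 - j) ((j + 2 * C + 1) * Real.log 2 + C' + B)
    zero_le_one (fun y hy => hm ▸ le_biSup (ψ ⟨u, hu⟩) hy.2) h8 (Eventually.frequently ?_)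
  · linarith
  filter_upwards [lg_pole (hu _) (HA.ev_target ha₀.1) hc0 hC' (b a₀).t j,
    nhdsWithin_le_nhds (gt_mem_nhds hε)] with r h11 h12 y _ h13 h14
  refine (h2 ⟨u, hu⟩ a₀ y ⟨h13, h9 (h14.trans h12)⟩).trans
    ((add_le_coe (h11 _ h14) le_rfl).trans (le_of_eq ?_))
  congr 1; ring

/-- **chains**: a connected finite union of closed sets with the attenuation property -/
theorem frc_conn {Z : Set P} (hZ : IsPreconnected Z) {𝒮 : Set (Set P)} (h𝒮 : 𝒮.Finite)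
    (hcl : ∀ S ∈ 𝒮, IsClosed S) (hcov : Z ⊆ ⋃₀ 𝒮) (H : ∀ S ∈ 𝒮, ∀ p ∈ S, Frc A h p S) {p₀ : P}
    (hp₀ : p₀ ∈ Z) : Frc A h p₀ Z := by
  have hf : ∀ Q : Set P → Prop, {S | S ∈ 𝒮 ∧ Q S}.Finite := fun Q => h𝒮.subset fun _ h => h.1
  have hc : ∀ Q : Set P → Prop, IsClosed (⋃₀ {S | S ∈ 𝒮 ∧ Q S}) := fun Q => by
    rw [sUnion_eq_biUnion]
    exact (hf Q).isClosed_biUnion fun S hS => hcl S hS.1
  have key := isPreconnected_iff_subset_of_disjoint_closed.1 hZ _ _ (hc (Frc A h p₀))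
    (hc fun S => ¬ Frc A h p₀ S) (fun p hp => by
      obtain ⟨S, hS, h2⟩ := hcov hp
      by_cases h3 : Frc A h p₀ S
      · exact Or.inl ⟨S, ⟨hS, h3⟩, h2⟩
      · exact Or.inr ⟨S, ⟨hS, h3⟩, h2⟩)
    (eq_empty_of_forall_notMem fun p ⟨_, ⟨S, hS, h1⟩, S', hS', h2⟩ =>
      hS'.2 (hS.2.trans h1 (H S' hS'.1 p h2)))
  rcases key with h1 | h1
  · exact (frc_sUnion (hf _) fun S hS => hS.2).mono h1
  · obtain ⟨S, hS, h2⟩ := h1 hp₀
    exact absurd (H S hS.1 p₀ h2) hS.2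

end Crest.Agent.X261.Gr.Att
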