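import Crest.Agent.X261.Gr.Att
import Crest.Agent.X261.Shaf.Defs

/-!
# Row 261, package GR, file `AttS` (helper57): `Shaf.AttStmt`
-/

set_option autoImplicit false
set_option linter.unusedSectionVars false

open Set Filter Topology Metric

noncomputable section

namespace Crest.Agent.X261.Gr.Att

open Crest.Agent.X261.Psh Crest.Agent.X261.Ans Crest.Agent.X261.Shaf

variable {E : Type} [NormedAddCommGroup E] [NormedSpace ℂ E] [FiniteDimensional ℂ E]
  {P : Type} [TopologicalSpace P] {A : HA E P} {u : P → EReal} {p : P} {c : ℝ}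

theorem qw_of_qpsh {h : A.ι → E → ℝ} (hu : QPsh A h u) : QW A (fun i p => h i (A.e i p)) u :=
  fun i => (hu i).congr fun z hz => by simp only [cw, (A.e i).right_inv hz]

theorem cont_wt {h : A.ι → E → ℝ} (hh : ∀ i, ContinuousOn (h i) (A.e i).target) (i : A.ι) :
    ContinuousOn (fun p => h i (A.e i p)) (A.e i).source :=
  (hh i).comp (A.e i).continuousOn (A.e i).mapsTo

theorem pole_of_pol (H : Pol A u c p) : Pole A u p c := by
  obtain ⟨i, hi, b, hb⟩ := H
  refine ⟨i, hi, b, ?_⟩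
  have ht : Tendsto (fun z => ‖z - A.e i p‖) (𝓝[≠] (A.e i p)) (𝓝[>] 0) :=
    tendsto_norm_sub_self_nhdsNE _
  exact (ht.eventually hb).mono fun z hz => hz z (mem_closedBall_iff_norm.2 le_rfl)

theorem pol_of_pole [Nontrivial E] {h : A.ι → P → ℝ} (hh : ∀ i, ContinuousOn (h i) (A.e i).source)
    (hu : QW A h u) (H : Pole A u p c) (hc : 0 ≤ c) : Pol A u c p := by
  obtain ⟨i, hi, H⟩ := H
  have h0 := (hh i).continuousAt (HA.ev_source hi)
  obtain ⟨C, hC⟩ := (poleC_iff_cw hi h0).1 H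
  have h1 : ∀ᶠ z in 𝓝 (A.e i p), |h i ((A.e i).symm z)| < |h i p| + 1 :=
    (HA.ev_chart hi).1 (h0.abs.eventually (gt_mem_nhds (lt_add_one _)))
  obtain ⟨ε, hε, h2⟩ := nhds_basis_closedBall.eventually_iff.1
    ((eventually_nhdsWithin_iff.1 hC).and h1)
  refine ⟨i, hi, C + (|h i p| + 1), ?_⟩
  filter_upwards [Ioo_mem_nhdsGT hε] with r hr z hz
  have h3 : ∀ y ∈ closedBall (A.e i p) r, y ≠ A.e i p →
      cw A h u i y ≤ ((c * Real.log r + C : ℝ) : EReal) := fun y hy hne => by
    refine ((h2 (closedBall_subset_closedBall hr.2.le hy)).1 hne).trans (EReal.coe_le_coe_iff.2 ?_)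
    have := Real.log_le_log (norm_pos_iff.2 (sub_ne_zero.2 hne)) (mem_closedBall_iff_norm.1 hy)
    nlinarith
  have h4 : cw A h u i z ≤ ((c * Real.log r + C : ℝ) : EReal) := by
    rcases eq_or_ne z (A.e i p) with rfl | hne
    · refine le_of_punct (hu i) (HA.ev_target hi) ?_
      filter_upwards [self_mem_nhdsWithin, nhdsWithin_le_nhds (closedBall_mem_nhds _ hr.1)]
        with y h5 h6 using h3 y h6 h5
    · exact h3 z hz hne
  have h5 := abs_lt.1 (h2 (closedBall_subset_closedBall hr.2.le hz)).2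
  exact (add_coe_le_iff.1 h4).trans (EReal.coe_le_coe_iff.2 (by linarith [h5.1]))

theorem discrete_of_subsingleton [Subsingleton E] (A : HA E P) : DiscreteTopology P := by
  refine discreteTopology_iff_isOpen_singleton.2 fun p => ?_
  obtain ⟨i, hi⟩ := A.cover p
  convert (A.e i).open_source using 1
  exact (eq_singleton_iff_unique_mem.2
    ⟨hi, fun q hq => (A.e i).injOn hq hi (Subsingleton.elim _ _)⟩).symm

/-- attenuation in the language of `Shaf/Defs`, on any manifold -/
theorem att_pol [T2Space P] {h : A.ι → E → ℝ} (hh : ∀ i, ContinuousOn (h i) (A.e i).target)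
    {Z : Set P} (hZ : A.An univ Z) (hK : IsCompact Z) (hc : IsPreconnected Z) {p₀ : P}
    (hp₀ : p₀ ∈ Z) (j : ℝ) :
    ∀ᶠ c : ℝ in atTop, ∀ u, QPsh A h u → Pol A u c p₀ → ∀ p ∈ Z, Pol A u j p := by
  rcases subsingleton_or_nontrivial E with hE | hE
  · have := discrete_of_subsingleton A
    filter_upwards [eventually_ge_atTop j] with c hj u _ hp p hpZ
    rw [hc.subsingleton hpZ hp₀]
    exact hp.mono hj
  · filter_upwards [att (cont_wt hh) hZ hK hc hp₀ (max j 0)] with c H u hu hp p hpZ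
    exact (pol_of_pole (cont_wt hh) (qw_of_qpsh hu) (H u (qw_of_qpsh hu) (pole_of_pol hp) p hpZ)
      (le_max_right _ _)).mono (le_max_left _ _)

/-- ATT -/
theorem attStmt : AttStmt := by
  rintro E M _ _ _ _ _ A _ h hh x y ⟨Z, hK, hc, hZ, hx, hy⟩ j
  have h1 : (A.prod A).An univ (Z ×ˢ {y}) := fun q _ =>
    (hZ q.1 (mem_univ _)).prod (HA.anAt_singleton A y q.2)
  obtain ⟨c, H⟩ := (att_pol hh h1 (hK.prod isCompact_singleton) (hc.prod isPreconnected_singleton)
    (p₀ := (y, y)) ⟨hy, rfl⟩ j).exists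
  exact ⟨c, fun u hu _ hp => H u hu hp (x, y) ⟨hx, rfl⟩⟩

end Crest.Agent.X261.Gr.Att
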