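import Crest.Agent.X261.Gr.AttS
import Crest.Agent.X261.Gr.Vol
import Crest.Agent.X261.GrL.Lim
import Crest.Agent.X261.Obs.C
import Crest.Agent.X261.Cov.Q
import Crest.Agent.X261.Sh72.Conv

/-!
# Row 261, package GR, file `Key57` (helper57): KEY

On a Galois cover `M` of a compact Kaehler manifold, the pairs of points which lie in one compact
connected analytic set are contained in countably many analytic subsets of `M × M` which are proper
over both factors.
-/

set_option autoImplicit false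
set_option linter.unusedSectionVars false

open Set Filter Topology Metric MeasureTheory Module

noncomputable section

namespace Crest.Agent.X261.Gr.Key57

open Crest.Agent.R275.Geo Crest.Agent.R275.GC293
open Crest.Agent.R273.UCov_914
open Crest.Agent.R281.Kp_487 (KP wt_contDiffAt)
open Crest.Agent.X261.Psh Crest.Agent.X261.Ans Crest.Agent.X261.BT Crest.Agent.X261.Gr.Att
open Crest.Agent.X261.Cov.P Crest.Agent.X261.Cov.Q Crest.Agent.X261.Obs Crest.Agent.X261.GrL

section gen

variable {E F : Type} [NormedAddCommGroup E] [NormedSpace ℂ E] [FiniteDimensional ℂ E]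
  [NormedAddCommGroup F] [NormedSpace ℂ F] [FiniteDimensional ℂ F]
  {P Q : Type} [TopologicalSpace P] [TopologicalSpace Q] {A : HA E P} {B : HA F Q}

/-- pull-back of quasi-psh functions -/
theorem qw_comp {h : A.ι → P → ℝ} {u : P → EReal} (hu : QW A h u) {f : Q → P}
    (hf : ∀ y, B.Hol A f y) {r : B.ι → A.ι}
    (hr : ∀ k, ∀ y ∈ (B.e k).source, f y ∈ (A.e (r k)).source) :
    QW B (fun k y => h (r k) (f y)) fun y => u (f y) := fun k => by
  have h1 : ∀ z ∈ (B.e k).target, f ((B.e k).symm z) ∈ (A.e (r k)).source := fun z hz =>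
    hr k _ ((B.e k).map_target hz)
  refine (Hol.comp_hol (A.e (r k)).open_target (hu (r k))
    (φ := fun z => A.e (r k) (f ((B.e k).symm z)))
    (fun z hz => ((hf _).an hz (h1 z hz)).differentiableAt.differentiableWithinAt)
    fun z hz => (A.e (r k)).map_source (h1 z hz)).congr fun z hz => ?_
  simp only [Att.cw, (A.e (r k)).left_inv (h1 z hz)]

/-- poles descend under local biholomorphisms -/
theorem pole_desc {U : Set Q} {V : Set P} {f : Q → P} {σ : P → Q} (h : HA.Bih B A U V f σ) {y : Q}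
    (hy : y ∈ U) {u : P → EReal} {c : ℝ} (H : Pole B (fun y => u (f y)) y c) (hc : 0 ≤ c) :
    Pole A u (f y) c := by
  have hV : ∀ᶠ z in 𝓝 (f y), z ∈ V := h.opV.mem_nhds (h.mg hy)
  have h1 : Pole B (fun y => u (f y)) (σ (f y)) c := by rwa [h.fg y hy]
  refine (h1.comp (h.hf _ (h.mg hy)) ?_ hc).of_le (B := 0) ?_
  · filter_upwards [self_mem_nhdsWithin, nhdsWithin_le_nhds hV] with z h2 h3 h4
    exact h2 (by rw [← h.gf z h3, h4, h.fg y hy]; rfl)
  · filter_upwards [nhdsWithin_le_nhds hV] with z hz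
    simp [h.gf z hz]

end gen

variable {n : ℕ} {X : Type} [TopologicalSpace X] [T2Space X] [CompactSpace X] {A : Atl n X}
  [Finite A.ι] {G : Type} [Group G] [Countable G] (D : MonD A G) {H : KP A}

theorem cont_u {m : ℕ} {N : Type} [TopologicalSpace N] {B : Atl m N} (H : KP B) (i : B.ι) :
    ContinuousOn (H.u i) (B.e i).source := fun x hx => by
  have h1 := (wt_contDiffAt H i ((B.e i).map_source hx)).continuousAt.comp
    ((B.e i).continuousAt hx)
  refine (h1.congr ?_).continuousWithinAt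
  filter_upwards [(B.e i).open_source.mem_nhds hx] with y hy
  simp only [Function.comp_apply, KP.wt, (B.e i).left_inv hy]

/-- the kernels: quasi-psh on `N`, compact non-integrability loci, poles along the diagonal -/
theorem exists_ker (P : Part A) (hH : H.Pos) {c : ℝ} (hc : 0 < c) :
    ∃ U : Nq D → EReal, QW (HA.of (aN D)) (kN D H).u U ∧ (∀ y, U y ≤ 0) ∧
      (∀ t, 0 ≤ t → IsCompact (Zu (aN D) U t)) ∧
      ∀ e, Pole (aM D) (fun x => U (q D x)) (e, e) c := by
  borelize (Nq D)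
  obtain ⟨C, O, L, -, h⟩ := exists_obst_N D hH
  obtain ⟨f, h⟩ := h c hc.le
  obtain ⟨S⟩ := exists_ubN D hH
  have hN := pos_N D hH
  have hq : ∀ s, QP (sc (max (c * C) 1) (kN D H)) O (f s) := fun s =>
    QP.sc_le (pos_semi hN) (h.qp s) (le_max_left _ _)
  have hoff := fun s : ℕ => h.off s 0 s.cast_nonneg le_rfl
  obtain ⟨h1, h2⟩ := fam_env hN (slow_N D P hH) (v := fun s => Vol.obs L (f s))
    (fun s => Vol.obs_cont h.opn (h.qp s).cont h.Lc h.LO fun x hx hL => (hoff s x hx hL).2)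
    (fun s => Vol.obs_cpt h.Lc) (fun s => Vol.obs_le)
    (fun x s s' hs => by
      simp only [Vol.obs]
      split_ifs
      exacts [min_le_min le_rfl (h.anti x (Nat.cast_le.2 hs)), le_rfl])
    ⟨_, Vol.MAo_lt_top (hq 0) h.Lc h.LO, fun s => Vol.vol_obs hN (slow_N D P hH) (le_max_right _ _)
      (hq s) (hq 0) h.Lc h.LO (fun x hx hL => (hoff s x hx hL).1)
      fun x hx hL => (hoff s x hx hL).2⟩
  refine ⟨_, h1.qw, h1.nonpos, fun t ht => h1.cpt hN S ht, fun e => ?_⟩
  obtain ⟨i, hi⟩ := (D.atl G).cover e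
  have hL : q D (e, e) ∈ interior L := h.sub ⟨e, rfl⟩
  obtain ⟨b, hb⟩ := h.sharp i.1 _ (h.LO (interior_subset hL)) (q_mem_UN D hi hi)
  refine pole_diag (A := HA.of (D.atl G)) (i := i) hi (C := b) ?_
  filter_upwards [((continuous_q D).tendsto (e, e)).eventually
    (hb.and (mem_interior_iff_mem_nhds.1 hL))] with x hx r hr h3
  obtain ⟨s, hs⟩ := exists_nat_ge (-(c * Real.log r + b) / c)
  rw [div_le_iff₀ hc] at hs
  refine (lim_le _ s _).trans (EReal.coe_le_coe_iff.2 ((h2 s _).trans ?_))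
  have h4 : q D x ∈ L := hx.2
  simp only [Vol.obs, if_pos h4]
  exact (min_le_right _ _).trans ((hx.1 s r hr h3).trans (max_le le_rfl (by linarith)))

/-- **KEY** -/
theorem exists_Z (P : Part A) (hH : H.Pos) : ∃ Z : ℕ → Set (Nq D),
    (∀ c, IsCompact (Z c) ∧ (HA.of (aN D)).An univ (Z c)) ∧
    ∀ Y : Set (D.cov G), IsCompact Y → IsPreconnected Y → (HA.of (D.atl G)).An univ Y →
      ∀ x ∈ Y, ∀ᶠ c in atTop, ∀ y ∈ Y, q D (x, y) ∈ Z c := by
  choose U h1 _ h2 h3 using fun c : ℕ =>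
    exists_ker D P hH (c := c + 1) (by positivity)
  refine ⟨fun c => Zu (aN D) (U c) 1 ∪ Dg D, fun c => ⟨(h2 c 1 zero_le_one).union (isCompact_Dg D),
    (an_Zu (h1 c) zero_le_one).union (an_Dg D)⟩, fun Y hK hc hY x hx => ?_⟩
  rcases Nat.eq_zero_or_pos n with rfl | hn
  · have := discrete_of_subsingleton (HA.of (D.atl G))
    exact Eventually.of_forall fun c y hy => Or.inr ((q_mem_Dg D).2 (hc.subsingleton hx hy))
  have : Nonempty (Fin (n + n)) := ⟨⟨0, by omega⟩⟩
  have hr : ∀ k : (aM D).ι, ∀ y ∈ ((aM D).e k).source, q D y ∈ ((HA.of (aN D)).e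
      ((k.1.1, k.2.1), toBi (k.1.2 * k.2.2⁻¹))).source := fun k y hy => q_mem D hy.1 hy.2
  have h4 := key (A := HA.of (D.atl G)) (fun k => (cont_u (kN D H) _).comp
    (continuous_q D).continuousOn (hr k)) hY hK hc hx (2 * finrank ℂ (Cn (n + n)))
  filter_upwards [(tendsto_atTop_add_const_right _ (1 : ℝ)
    tendsto_natCast_atTop_atTop).eventually h4] with c h5 y hy
  have h6 := h5 _ (qw_comp (h1 c) (hol_q D) hr) (h3 c x) y hy
  obtain ⟨W, V, σ, h7, h8⟩ := exists_bih (D := D) (D' := D) bq_div (x, y)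
  exact Or.inl ((pole_desc h8 h7 h6 (by positivity)).hni_mul volume zero_le_one (by rw [one_mul]))

omit [Countable G] in
/-- KEY in the form of `Sh97/Defs` -/
theorem key97 [ConnectedSpace (D.cov G)] (P : Part A) (hH : H.Pos) :
    Nonempty (Sh97.Key (HA.of (D.atl G))) := by
  have := Cov.A.countable D
  obtain ⟨Z, h1, h2⟩ := exists_Z D P hH
  exact ⟨⟨fun c => q D ⁻¹' Z c, fun c => (an_q_iff D).2 (h1 c).2,
    fun c K hK => ⟨isCompact_fst D (h1 c).1 hK, isCompact_snd D (h1 c).1 hK⟩,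
    fun x y ⟨Y, a1, a2, a3, a4, a5⟩ => (h2 Y a1 a2 a3 x a4).exists.imp fun c hc => hc y a5⟩⟩

omit [Countable G] in
/-- KEY in the form of `Shaf/Defs` -/
theorem key55 [ConnectedSpace (D.cov G)] (P : Part A) (hH : H.Pos) :
    Shaf.Key (HA.of (D.atl G)) := by
  obtain ⟨k⟩ := key97 D P hH
  refine ⟨k.Z, fun c => ⟨k.an c, (k.an c).isClosed, fun K hK => ?_⟩, k.er⟩
  rw [prod_univ, univ_prod]
  exact k.bip c K hK

/-- KEY in the form of `Sh72/Conv` -/
theorem keyS : Sh72.KeyS := fun _ _ _ _ _ _ _ _ _ P _ hH _ _ _ D _ => key97 D P hH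

end Crest.Agent.X261.Gr.Key57
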